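import Mathlib

/-!
# A discrete Prekopa-Leindler inequality on the integers

Finite-sum forms of the one-dimensional Prekopa-Leindler inequality for functions on the
integers, proved from the Cauchy-Davenport bound for sumsets in a linear order by peeling
off the lowest level.
-/

namespace Vale.Agent.Lib.P249.H76

open Finset
open scoped Pointwise

/-- Auxiliary form of `dpl_min` with an explicit bound on the support sizes. -/
theorem dpl_min_aux : ∀ (n : ℕ) (A B : Finset ℤ), A.card + B.card ≤ n → A.Nonempty →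
    B.Nonempty → ∀ (F G H : ℤ → ℝ) (m : ℝ), (∀ x ∈ A, 0 < F x) → (∀ y ∈ B, 0 < G y) →
    (∀ x ∈ A, F x ≤ m) → (∀ y ∈ B, G y ≤ m) → (∃ x ∈ A, F x = m) → (∃ y ∈ B, G y = m) →
    (∀ x ∈ A, ∀ y ∈ B, min (F x) (G y) ≤ H (x + y)) →
    ∑ x ∈ A, F x + ∑ y ∈ B, G y - m ≤ ∑ z ∈ A + B, H z := by
  intro n
  induction n with
  | zero =>
    intro A B hn hA hB
    have := hA.card_pos
    omega
  | succ n ih =>
    intro A B hn hA hB F G H m hFpos hGpos hFm hGm hFmax hGmax hH
    obtain ⟨x0, hx0, hx0min⟩ := Finset.exists_min_image A F hA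
    obtain ⟨y0, hy0, hy0min⟩ := Finset.exists_min_image B G hB
    obtain ⟨t, ht⟩ : ∃ t, t = min (F x0) (G y0) := ⟨_, rfl⟩
    have htpos : 0 < t := ht ▸ lt_min (hFpos x0 hx0) (hGpos y0 hy0)
    have htF : ∀ x ∈ A, t ≤ F x := fun x hx => ht ▸ (min_le_left _ _).trans (hx0min x hx)
    have htG : ∀ y ∈ B, t ≤ G y := fun y hy => ht ▸ (min_le_right _ _).trans (hy0min y hy)
    have htH : ∀ z ∈ A + B, t ≤ H z := by
      intro z hz
      obtain ⟨x, hx, y, hy, rfl⟩ := Finset.mem_add.mp hz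
      exact (le_min (htF x hx) (htG y hy)).trans (hH x hx y hy)
    have hcd : (A.card : ℝ) + B.card - 1 ≤ ((A + B).card : ℝ) := by
      have h0 := cauchy_davenport_add_of_linearOrder_isCancelAdd hA hB
      have h1 : 1 ≤ A.card := hA.card_pos
      have h2 : ((A.card + B.card - 1 : ℕ) : ℝ) ≤ ((A + B).card : ℝ) := by exact_mod_cast h0
      rw [Nat.cast_sub (by omega)] at h2
      push_cast at h2
      linarith
    have htm_le : t ≤ m := by
      obtain ⟨x, hx, hxm⟩ := hFmax
      exact hxm ▸ htF x hx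
    by_cases htm : t = m
    · have hF_eq : ∀ x ∈ A, F x = m := fun x hx => le_antisymm (hFm x hx) (htm ▸ htF x hx)
      have hG_eq : ∀ y ∈ B, G y = m := fun y hy => le_antisymm (hGm y hy) (htm ▸ htG y hy)
      have hmpos : 0 < m := htm ▸ htpos
      calc ∑ x ∈ A, F x + ∑ y ∈ B, G y - m
          = ((A.card : ℝ) + B.card - 1) * m := by
            rw [Finset.sum_congr rfl hF_eq, Finset.sum_congr rfl hG_eq]
            simp only [Finset.sum_const, nsmul_eq_mul]
            ring
        _ ≤ ((A + B).card : ℝ) * m := mul_le_mul_of_nonneg_right hcd hmpos.le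
        _ = ∑ z ∈ A + B, m := by simp
        _ ≤ ∑ z ∈ A + B, H z := Finset.sum_le_sum (fun z hz => htm ▸ htH z hz)
    · have htlt : t < m := lt_of_le_of_ne htm_le htm
      have hA'ne : (A.filter (fun x => t < F x)).Nonempty := by
        obtain ⟨x, hx, hxm⟩ := hFmax
        exact ⟨x, Finset.mem_filter.mpr ⟨hx, hxm ▸ htlt⟩⟩
      have hB'ne : (B.filter (fun y => t < G y)).Nonempty := by
        obtain ⟨y, hy, hym⟩ := hGmax
        exact ⟨y, Finset.mem_filter.mpr ⟨hy, hym ▸ htlt⟩⟩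
      have hA'le : (A.filter (fun x => t < F x)).card ≤ A.card := Finset.card_filter_le _ _
      have hB'le : (B.filter (fun y => t < G y)).card ≤ B.card := Finset.card_filter_le _ _
      have hcard : (A.filter (fun x => t < F x)).card + (B.filter (fun y => t < G y)).card
          ≤ n := by
        rcases min_choice (F x0) (G y0) with h | h
        · have hlt : (A.filter (fun x => t < F x)).card < A.card := by
            apply Finset.card_lt_card
            rw [Finset.filter_ssubset]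
            exact ⟨x0, hx0, by rw [ht, h]; exact lt_irrefl _⟩
          omega
        · have hlt : (B.filter (fun y => t < G y)).card < B.card := by
            apply Finset.card_lt_card
            rw [Finset.filter_ssubset]
            exact ⟨y0, hy0, by rw [ht, h]; exact lt_irrefl _⟩
          omega
      have ih' := ih (A.filter (fun x => t < F x)) (B.filter (fun y => t < G y)) hcard hA'ne
        hB'ne (fun x => F x - t) (fun y => G y - t) (fun z => H z - t) (m - t)
        (fun x hx => sub_pos.mpr (Finset.mem_filter.mp hx).2)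
        (fun y hy => sub_pos.mpr (Finset.mem_filter.mp hy).2)
        (fun x hx => sub_le_sub_right (hFm x (Finset.mem_filter.mp hx).1) t)
        (fun y hy => sub_le_sub_right (hGm y (Finset.mem_filter.mp hy).1) t)
        (by
          obtain ⟨x, hx, hxm⟩ := hFmax
          exact ⟨x, Finset.mem_filter.mpr ⟨hx, hxm ▸ htlt⟩, by rw [hxm]⟩)
        (by
          obtain ⟨y, hy, hym⟩ := hGmax
          exact ⟨y, Finset.mem_filter.mpr ⟨hy, hym ▸ htlt⟩, by rw [hym]⟩)
        (by
          intro x hx y hy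
          rw [min_sub_sub_right]
          exact sub_le_sub_right
            (hH x (Finset.mem_filter.mp hx).1 y (Finset.mem_filter.mp hy).1) t)
      have hsub : A.filter (fun x => t < F x) + B.filter (fun y => t < G y) ⊆ A + B :=
        Finset.add_subset_add (Finset.filter_subset _ _) (Finset.filter_subset _ _)
      have hsumF : ∑ x ∈ A, F x = t * A.card + ∑ x ∈ A.filter (fun x => t < F x), (F x - t) := by
        have h1 : ∑ x ∈ A.filter (fun x => t < F x), (F x - t) = ∑ x ∈ A, (F x - t) := by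
          apply Finset.sum_filter_of_ne
          intro x hx hne
          exact lt_of_le_of_ne (htF x hx) (fun h => hne (by rw [h]; ring))
        rw [h1, Finset.sum_sub_distrib]
        simp only [Finset.sum_const, nsmul_eq_mul]
        ring
      have hsumG : ∑ y ∈ B, G y = t * B.card + ∑ y ∈ B.filter (fun y => t < G y), (G y - t) := by
        have h1 : ∑ y ∈ B.filter (fun y => t < G y), (G y - t) = ∑ y ∈ B, (G y - t) := by
          apply Finset.sum_filter_of_ne
          intro y hy hne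
          exact lt_of_le_of_ne (htG y hy) (fun h => hne (by rw [h]; ring))
        rw [h1, Finset.sum_sub_distrib]
        simp only [Finset.sum_const, nsmul_eq_mul]
        ring
      have hsumH : t * ((A + B).card : ℝ)
          + ∑ z ∈ A.filter (fun x => t < F x) + B.filter (fun y => t < G y), (H z - t)
          ≤ ∑ z ∈ A + B, H z := by
        have h1 : ∑ z ∈ A.filter (fun x => t < F x) + B.filter (fun y => t < G y), (H z - t)
            ≤ ∑ z ∈ A + B, (H z - t) :=
          Finset.sum_le_sum_of_subset_of_nonneg hsub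
            (fun z hz _ => sub_nonneg.mpr (htH z hz))
        have h2 : ∑ z ∈ A + B, (H z - t) = ∑ z ∈ A + B, H z - ((A + B).card : ℝ) * t := by
          rw [Finset.sum_sub_distrib]
          simp only [Finset.sum_const, nsmul_eq_mul]
        linarith
      have h3 : t * ((A.card : ℝ) + B.card - 1) ≤ t * ((A + B).card : ℝ) :=
        mul_le_mul_of_nonneg_left hcd htpos.le
      linarith

/-- **Discrete Prekopa-Leindler, minimum form.** If `F`, `G` are positive on the nonempty
finite sets `A`, `B` of integers, with the same maximum `m`, and `H (x + y)` dominates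
`min (F x) (G y)`, then `sum F + sum G - m` is at most the sum of `H` over `A + B`. -/
theorem dpl_min (A B : Finset ℤ) (hA : A.Nonempty) (hB : B.Nonempty) (F G H : ℤ → ℝ) (m : ℝ)
    (hFpos : ∀ x ∈ A, 0 < F x) (hGpos : ∀ y ∈ B, 0 < G y)
    (hFm : ∀ x ∈ A, F x ≤ m) (hGm : ∀ y ∈ B, G y ≤ m)
    (hFmax : ∃ x ∈ A, F x = m) (hGmax : ∃ y ∈ B, G y = m)
    (hH : ∀ x ∈ A, ∀ y ∈ B, min (F x) (G y) ≤ H (x + y)) :
    ∑ x ∈ A, F x + ∑ y ∈ B, G y - m ≤ ∑ z ∈ A + B, H z :=
  dpl_min_aux (A.card + B.card) A B le_rfl hA hB F G H m hFpos hGpos hFm hGm hFmax hGmax hH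

/-- **Discrete Prekopa-Leindler, geometric-mean form.** If `F x * G y ≤ H (x + y) ^ 2` on
`A × B` (all functions nonnegative, `F ≤ a` on `A`, `G ≤ b` on `B`), then
`2 * sqrt (sum F * sum G) ≤ sum_{A + B} H + sqrt (a * b)`. -/
theorem dpl_sqrt (A B : Finset ℤ) (F G H : ℤ → ℝ)
    (hF : ∀ x ∈ A, 0 ≤ F x) (hG : ∀ y ∈ B, 0 ≤ G y) (hH0 : ∀ z ∈ A + B, 0 ≤ H z)
    (a b : ℝ) (hFa : ∀ x ∈ A, F x ≤ a) (hGb : ∀ y ∈ B, G y ≤ b)
    (hFGH : ∀ x ∈ A, ∀ y ∈ B, F x * G y ≤ H (x + y) ^ 2) :
    2 * Real.sqrt ((∑ x ∈ A, F x) * (∑ y ∈ B, G y))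
      ≤ ∑ z ∈ A + B, H z + Real.sqrt (a * b) := by
  have hHsum : 0 ≤ ∑ z ∈ A + B, H z := Finset.sum_nonneg hH0
  have hsq : 0 ≤ Real.sqrt (a * b) := Real.sqrt_nonneg _
  by_cases hA' : (A.filter (fun x => 0 < F x)).Nonempty
  swap
  · have hz : ∑ x ∈ A, F x = 0 := by
      apply Finset.sum_eq_zero
      intro x hx
      by_contra hne
      exact hA' ⟨x, Finset.mem_filter.mpr ⟨hx, lt_of_le_of_ne (hF x hx) (Ne.symm hne)⟩⟩
    rw [hz, zero_mul, Real.sqrt_zero]
    linarith
  by_cases hB' : (B.filter (fun y => 0 < G y)).Nonempty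
  swap
  · have hz : ∑ y ∈ B, G y = 0 := by
      apply Finset.sum_eq_zero
      intro y hy
      by_contra hne
      exact hB' ⟨y, Finset.mem_filter.mpr ⟨hy, lt_of_le_of_ne (hG y hy) (Ne.symm hne)⟩⟩
    rw [hz, mul_zero, Real.sqrt_zero]
    linarith
  obtain ⟨x1, hx1, hx1max⟩ := Finset.exists_max_image _ F hA'
  obtain ⟨y1, hy1, hy1max⟩ := Finset.exists_max_image _ G hB'
  have ha'pos : 0 < F x1 := (Finset.mem_filter.mp hx1).2
  have hb'pos : 0 < G y1 := (Finset.mem_filter.mp hy1).2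
  obtain ⟨c, hc⟩ : ∃ c, c = Real.sqrt (F x1 * G y1) := ⟨_, rfl⟩
  have hcpos : 0 < c := hc ▸ Real.sqrt_pos.mpr (mul_pos ha'pos hb'pos)
  have hc2 : c ^ 2 = F x1 * G y1 := hc ▸ Real.sq_sqrt (mul_pos ha'pos hb'pos).le
  have hcab : c ≤ Real.sqrt (a * b) := by
    rw [hc]
    apply Real.sqrt_le_sqrt
    exact mul_le_mul (hFa x1 (Finset.mem_filter.mp hx1).1) (hGb y1 (Finset.mem_filter.mp hy1).1)
      hb'pos.le (ha'pos.le.trans (hFa x1 (Finset.mem_filter.mp hx1).1))
  have key := dpl_min (A.filter (fun x => 0 < F x)) (B.filter (fun y => 0 < G y)) hA' hB'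
    (fun x => F x / F x1) (fun y => G y / G y1) (fun z => H z / c) 1
    (fun x hx => div_pos (Finset.mem_filter.mp hx).2 ha'pos)
    (fun y hy => div_pos (Finset.mem_filter.mp hy).2 hb'pos)
    (fun x hx => (div_le_one ha'pos).mpr (hx1max x hx))
    (fun y hy => (div_le_one hb'pos).mpr (hy1max y hy))
    ⟨x1, hx1, div_self ha'pos.ne'⟩ ⟨y1, hy1, div_self hb'pos.ne'⟩
    (by
      intro x hx y hy
      have hxA := (Finset.mem_filter.mp hx).1
      have hyB := (Finset.mem_filter.mp hy).1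
      have hu : 0 < F x / F x1 := div_pos (Finset.mem_filter.mp hx).2 ha'pos
      have hv : 0 < G y / G y1 := div_pos (Finset.mem_filter.mp hy).2 hb'pos
      have hHnn : 0 ≤ H (x + y) := hH0 _ (Finset.add_mem_add hxA hyB)
      have hq : 0 ≤ H (x + y) / c := div_nonneg hHnn hcpos.le
      have h1 : min (F x / F x1) (G y / G y1) ^ 2 ≤ (F x / F x1) * (G y / G y1) := by
        rw [sq]
        exact mul_le_mul (min_le_left _ _) (min_le_right _ _) (le_min hu.le hv.le) hu.le
      have h2 : (F x / F x1) * (G y / G y1) ≤ (H (x + y) / c) ^ 2 := by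
        rw [div_pow, hc2, div_mul_div_comm]
        exact div_le_div_of_nonneg_right (hFGH x hxA y hyB) (mul_pos ha'pos hb'pos).le
      exact (pow_le_pow_iff_left₀ (le_min hu.le hv.le) hq two_ne_zero).mp (h1.trans h2))
  have hSF : ∑ x ∈ A.filter (fun x => 0 < F x), F x / F x1 = (∑ x ∈ A, F x) / F x1 := by
    rw [← Finset.sum_div]
    congr 1
    apply Finset.sum_filter_of_ne
    intro x hx hne
    exact lt_of_le_of_ne (hF x hx) (Ne.symm hne)
  have hSG : ∑ y ∈ B.filter (fun y => 0 < G y), G y / G y1 = (∑ y ∈ B, G y) / G y1 := by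
    rw [← Finset.sum_div]
    congr 1
    apply Finset.sum_filter_of_ne
    intro y hy hne
    exact lt_of_le_of_ne (hG y hy) (Ne.symm hne)
  have hSH : ∑ z ∈ A.filter (fun x => 0 < F x) + B.filter (fun y => 0 < G y), H z / c
      ≤ (∑ z ∈ A + B, H z) / c := by
    rw [Finset.sum_div]
    exact Finset.sum_le_sum_of_subset_of_nonneg
      (Finset.add_subset_add (Finset.filter_subset _ _) (Finset.filter_subset _ _))
      (fun z hz _ => div_nonneg (hH0 z hz) hcpos.le)
  rw [hSF, hSG] at key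
  have hSFnn : 0 ≤ ∑ x ∈ A, F x := Finset.sum_nonneg hF
  have hSGnn : 0 ≤ ∑ y ∈ B, G y := Finset.sum_nonneg hG
  have hu0 : 0 ≤ (∑ x ∈ A, F x) / F x1 := div_nonneg hSFnn ha'pos.le
  have hv0 : 0 ≤ (∑ y ∈ B, G y) / G y1 := div_nonneg hSGnn hb'pos.le
  have hr : Real.sqrt ((∑ x ∈ A, F x) * (∑ y ∈ B, G y))
      = c * (Real.sqrt ((∑ x ∈ A, F x) / F x1) * Real.sqrt ((∑ y ∈ B, G y) / G y1)) := by
    have h1 : (∑ x ∈ A, F x) * (∑ y ∈ B, G y)
        = c ^ 2 * (((∑ x ∈ A, F x) / F x1) * ((∑ y ∈ B, G y) / G y1)) := by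
      rw [hc2]
      field_simp
    rw [h1, Real.sqrt_mul (sq_nonneg c), Real.sqrt_sq hcpos.le, Real.sqrt_mul hu0]
  have hamgm : 2 * (Real.sqrt ((∑ x ∈ A, F x) / F x1) * Real.sqrt ((∑ y ∈ B, G y) / G y1))
      ≤ (∑ x ∈ A, F x) / F x1 + (∑ y ∈ B, G y) / G y1 := by
    have h1 := Real.sq_sqrt hu0
    have h2 := Real.sq_sqrt hv0
    nlinarith [sq_nonneg (Real.sqrt ((∑ x ∈ A, F x) / F x1)
      - Real.sqrt ((∑ y ∈ B, G y) / G y1))]
  have hfin : c * ((∑ x ∈ A, F x) / F x1 + (∑ y ∈ B, G y) / G y1)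
      ≤ ∑ z ∈ A + B, H z + c := by
    have h1 : (∑ x ∈ A, F x) / F x1 + (∑ y ∈ B, G y) / G y1 ≤ (∑ z ∈ A + B, H z) / c + 1 := by
      linarith
    calc c * ((∑ x ∈ A, F x) / F x1 + (∑ y ∈ B, G y) / G y1)
        ≤ c * ((∑ z ∈ A + B, H z) / c + 1) := mul_le_mul_of_nonneg_left h1 hcpos.le
      _ = ∑ z ∈ A + B, H z + c := by field_simp
  rw [hr]
  have h3 := mul_le_mul_of_nonneg_left hamgm hcpos.le
  linarith

end Vale.Agent.Lib.P249.H76
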